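import Vale.Agent.P227.Rot.Quarter.Cov
import Vale.Agent.P227.Statement

/-!
# P227: the logarithmic Brunn–Minkowski inequality for pairs with `n - 3` common reflections

In every dimension it holds for origin-symmetric pairs with the same `n - 3` reflections of one
linear basis; a common quarter turn of a coordinate plane of the basis counts for two reflections.
For `n = 3` no symmetry beyond the origin is assumed.
-/

namespace Vale.Agent.Results.P227.CommonSymmetry

open MeasureTheory Set Matrix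
open Vale.Agent.P227
open scoped ENNReal RealInnerProductSpace

theorem of_turns {n q : ℕ} (K L : Set (Space n)) {l : ℝ} (bK : SymmBody K) (bL : SymmBody L)
    (hl : l ∈ Icc (0 : ℝ) 1) (b : Module.Basis (Fin n) ℝ (Space n)) (S : Finset (Fin n))
    (t : Fin q × Fin 2 ↪ Fin n) (hS : ∀ k, t k ∉ S)
    (hRK : ReflInv b S K) (hRL : ReflInv b S L) (hTK : TurnsInv b t K) (hTL : TurnsInv b t L)
    (hn : 2 ≤ n) (hcov : n ≤ S.card + 2 * q + 3) :
    LogBMAt l K L := by
  obtain ⟨hK, hKc, hKi, hKs⟩ := bK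
  obtain ⟨hL, hLc, hLi, hLs⟩ := bL
  show _ ≤ volume {x : EuclideanSpace ℝ (Fin n) | ∀ u : EuclideanSpace ℝ (Fin n), ‖u‖ = 1 →
        ⟪u, x⟫ ≤ sSup ((fun y => ⟪u, y⟫) '' K) ^ (1 - l)
          * sSup ((fun y => ⟪u, y⟫) '' L) ^ l}
  set e := WithLp.linearEquiv 2 ℝ (Fin n → ℝ)
  have hec : Continuous e := PiLp.continuous_ofLp 2 _
  have mp := PiLp.volume_preserving_toLp (Fin n)
  have himg : ∀ A : Set (EuclideanSpace ℝ (Fin n)), e '' A = WithLp.toLp 2 ⁻¹' A := by
    intro A
    ext y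
    exact ⟨fun ⟨a, ha, he⟩ => he ▸ ha, fun hy => ⟨_, hy, rfl⟩⟩
  have hvol : ∀ A, MeasurableSet A → volume (e '' A) = volume A := fun A hA => by
    rw [himg, mp.measure_preimage hA.nullMeasurableSet]
  have hctr : ∀ A : Set (EuclideanSpace ℝ (Fin n)), IsCompact A → Convex ℝ A →
      (interior A).Nonempty → (∀ x ∈ A, -x ∈ A) → Ctr (e '' A) := fun A h1 h2 h3 h4 =>
    { compact := h1.image hec
      convex := h2.linear_image e.toLinearMap
      nonempty := (h3.mono interior_subset).image e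
      neg_mem := by
        rintro _ ⟨a, ha, rfl⟩
        exact ⟨-a, h4 a ha, map_neg e a⟩ }
  have hpos : ∀ A : Set (EuclideanSpace ℝ (Fin n)), IsCompact A →
      (interior A).Nonempty → volume (e '' A) ≠ 0 := fun A h1 h3 => by
    rw [hvol A h1.measurableSet]
    exact (Measure.measure_pos_of_nonempty_interior volume h3).ne'
  have hrefl : ∀ A : Set (EuclideanSpace ℝ (Fin n)),
      (∀ i ∈ S, ∀ x ∈ A, x - (2 * b.repr x i) • b i ∈ A) →
      ∀ i ∈ S, ∀ y ∈ e '' A, y - (2 * (b.map e).equivFun y i) • (b.map e) i ∈ e '' A := by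
    rintro A hA i hi _ ⟨x, hx, rfl⟩
    refine ⟨_, hA i hi x hx, ?_⟩
    simp [Module.Basis.map]
  have hturn : ∀ A : Set (EuclideanSpace ℝ (Fin n)), TurnsInv b t A → ∀ k, ∀ y ∈ e '' A,
      y - ((b.map e).equivFun y (t (k, 0)) + (b.map e).equivFun y (t (k, 1))) • (b.map e) (t (k, 0))
        + ((b.map e).equivFun y (t (k, 0)) - (b.map e).equivFun y (t (k, 1)))
          • (b.map e) (t (k, 1)) ∈ e '' A := by
    rintro A hA k _ ⟨x, hx, rfl⟩
    refine ⟨_, hA k x hx, ?_⟩
    simp [Module.Basis.map]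
  have h := Rot.Quarter.comb_le_cov hn hS hcov (b.map e) (hctr K hK hKc hKi hKs)
    (hctr L hL hLc hLi hLs) (hrefl K hRK) (hrefl L hRL) (hturn K hTK) (hturn L hTL)
    (hpos K hK hKi) (hpos L hL hLi) hl
  rw [hvol K hK.measurableSet, hvol L hL.measurableSet] at h
  refine h.trans ?_
  set W : Set (EuclideanSpace ℝ (Fin n)) := {x | ∀ u : EuclideanSpace ℝ (Fin n),
    ‖u‖ = 1 → ⟪u, x⟫ ≤ sSup ((fun y => ⟪u, y⟫) '' K) ^ (1 - l)
      * sSup ((fun y => ⟪u, y⟫) '' L) ^ l}
  have hWm : MeasurableSet W := by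
    refine IsClosed.measurableSet ?_
    simp only [W, Set.ofPred_forall]
    exact isClosed_iInter fun u => isClosed_iInter fun _ =>
      isClosed_le (continuous_const.inner continuous_id) continuous_const
  rw [← hvol W hWm]
  refine measure_mono fun y hy => ⟨e.symm y, fun u _ => ?_, e.apply_symm_apply y⟩
  have hin : ∀ x : EuclideanSpace ℝ (Fin n), ⟪u, x⟫ = e u ⬝ᵥ e x := fun x => by
    rw [PiLp.inner_apply]
    exact Finset.sum_congr rfl fun i _ => by simp [e, mul_comm]
  have hs : ∀ A : Set (EuclideanSpace ℝ (Fin n)),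
      supp (e '' A) (e u) = sSup ((fun y => ⟪u, y⟫) '' A) := fun A => by
    unfold supp
    rw [image_image]
    congr 1
    exact image_congr fun x _ => (hin x).symm
  rw [hin, e.apply_symm_apply, ← hs K, ← hs L]
  exact hy (e u)

theorem result :
    ∀ (n q : ℕ), 2 ≤ n → ∀ (K L : Set (Space n)) (l : ℝ),
      SymmBody K → SymmBody L → l ∈ Icc (0 : ℝ) 1 →
      ∀ (b : Module.Basis (Fin n) ℝ (Space n)) (S : Finset (Fin n))
        (e : Fin q × Fin 2 ↪ Fin n), (∀ k, e k ∉ S) → ReflInv b S K → ReflInv b S L →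
        TurnsInv b e K → TurnsInv b e L → n ≤ S.card + 2 * q + 3 → LogBMAt l K L :=
  fun _ _ hn K L _ bK bL hl b S e hS hRK hRL hTK hTL hcov =>
    of_turns K L bK bL hl b S e hS hRK hRL hTK hTL hn hcov

end Vale.Agent.Results.P227.CommonSymmetry
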