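import Vale.Agent.P227.Log3.Zero

/-!
# P227: the log-Brunn–Minkowski inequality in dimension three, with the whole `L_p` range
-/

namespace Vale.Agent.Results.P227.LogBrunnMinkowskiR3

open MeasureTheory Set
open Vale.Agent.P227

theorem result :
    ∀ K L : Set (EuclideanSpace ℝ (Fin 3)), SymmBody K → SymmBody L → ∀ l ∈ Icc (0 : ℝ) 1,
      volume K ^ (1 - l) * volume L ^ l ≤ volume (logSum l K L) ∧
      ∀ p : ℝ, 0 < p → p ≤ 1 →
        (1 - l) * (volume K).toReal ^ (p / 3) + l * (volume L).toReal ^ (p / 3)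
          ≤ (volume (lpSum p l K L)).toReal ^ (p / 3) := by
  intro K L hK hL l hl
  refine ⟨Log3.logBM hK hL hl, fun p hp hp1 => ?_⟩
  simpa [LpBMAt] using lpAll p hp hp1 K L hK hL l hl

end Vale.Agent.Results.P227.LogBrunnMinkowskiR3
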