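import Vale.Agent.P227.Zono.Zonoid

/-!
# P227: the logarithmic Minkowski inequality for zonoids, in every dimension
-/

namespace Vale.Agent.Results.P227.ZonoidLogMinkowski

open MeasureTheory Vale.Agent.P227.Zono

theorem result :
    (∀ (m : ℕ) (K L : Set (Fin (m + 1) → ℝ)), Body K → IsZonoid K → Body L →
      IntegrableOn (fun x => Real.log (supportVal L (normalAt K x))) K ∧
      (volume K).toReal / (m + 1) * Real.log ((volume L).toReal / (volume K).toReal)
        ≤ ∫ x in K, Real.log (supportVal L (normalAt K x))) ∧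
    (∀ (m : ℕ) (K L : Set (Fin (m + 1) → ℝ)) (l : ℝ), Body K → Body L → 0 ≤ l → l ≤ 1 →
      IsZonoid (logComb l K L) →
        volume K ^ (1 - l) * volume L ^ l ≤ volume (logComb l K L)) :=
  ⟨fun _ _ _ hK hz hL => zonoid_log_minkowski hK hz hL,
    fun _ _ _ _ hK hL hl0 hl1 hz => zonoid_log_brunn_minkowski hK hL hl0 hl1 hz⟩

end Vale.Agent.Results.P227.ZonoidLogMinkowski
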